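import Vale.Agent.Results.P302.Gap77

namespace Vale.Agent.Results.P302.Gap75

open Finset Vale.Agent.Results.P302.Gap77

/-- three big items and the small items -/
def firstItems : List ℕ := [1778, 1774, 1772, 316, 316, 316, 314, 313, 312, 311, 310]

/-- the medium items -/
def mediumItems : List ℕ :=
  [1152, 1049, 1042, 990, 806, 806, 804, 800, 800, 797, 791, 684, 684, 675, 629, 629]

/-- the integer sizes (capacity 2400) -/
def szList : List ℕ := firstItems ++ mediumItems

/-- relaxed states: 3 items of size 310 in 6 bins, three useless bins -/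
def relaxed : List (List ℕ) :=
  [[2400, 2400, 2400, 2400, 2400, 1470, 628, 628, 628],
   [2400, 2400, 2400, 2400, 2090, 1780, 628, 628, 628],
   [2400, 2400, 2400, 2090, 2090, 2090, 628, 628, 628]]

/-- a state is bad if it is dominated by one of the relaxed states -/
def bad (caps : List ℕ) : Bool := relaxed.any (fun r => leAll (sortDesc caps) r)

theorem relaxed_infeasible : relaxed.all (fun r => !fits 629 mediumItems 13138 r) = true := by
  decide +kernel

theorem first_infeasible : fitsP bad firstItems (List.replicate 9 2400) = false := by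
  decide +kernel

theorem bad_sound (caps : List ℕ) (h : bad caps = true) : ¬ Packs mediumItems (caps : Multiset ℕ) := by
  intro hp
  simp only [bad, List.any_eq_true] at h
  obtain ⟨r, hr, hle⟩ := h
  have h1 := leAll_rel _ _ hle
  rw [sortDesc_coe] at h1
  have h2 := Packs.mono _ _ _ h1 hp
  have h3 := fits_complete 629 mediumItems 13138 r (by decide) (by decide) h2
  have h4 := List.all_eq_true.mp relaxed_infeasible r hr
  simp [h3] at h4

theorem not_packs : ¬ Packs szList (Multiset.replicate 9 2400) := by
  intro hp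
  have h := fitsP_complete bad mediumItems bad_sound firstItems (List.replicate 9 2400)
    (by rw [Multiset.coe_replicate]; exact hp)
  rw [first_infeasible] at h
  exact Bool.false_ne_true h

/-- the integer size of the item `i` -/
def sz (i : Fin 27) : ℕ := szList.getD i.val 0

/-- the instance: 27 items, sizes `sz i / 2400` -/
def inst (i : Fin 27) : ℚ := (sz i : ℚ) / 2400

theorem not_packable : ¬ Packable inst 9 := by
  rintro ⟨f, hf⟩
  apply not_packs
  have h := packs_of_assign sz f (List.finRange 27) (fun _ => 2400) (by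
    intro b
    rw [← Fin.sum_univ_def, ← Finset.sum_filter]
    have hb := hf b
    simp only [inst] at hb
    rw [← Finset.sum_div, div_le_one (by norm_num)] at hb
    exact_mod_cast hb)
  have e1 : (List.finRange 27).map sz = szList := by decide
  have e2 : (univ : Finset (Fin 9)).val.map (fun _ => 2400) = Multiset.replicate 9 2400 := by
    simp [Multiset.map_const']
  rw [e1, e2] at h
  exact h

/-- a packing into 10 bins -/
def asgList : List (Fin 10) :=
  [0, 1, 2, 0, 1, 2, 4, 8, 2, 9, 1, 3, 3, 4, 4, 5, 5, 6, 6, 7, 7, 6, 5, 7, 8, 8, 8]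

theorem packable_more : Packable inst 10 :=
  ⟨fun i => asgList.getD i.val 0, by decide +kernel⟩

theorem opt_eq : OPT inst = 10 := by
  apply le_antisymm
  · exact Nat.sInf_le packable_more
  · by_contra hlt
    have hlt' : OPT inst < 10 := not_le.mp hlt
    have hmem : Packable inst (OPT inst) :=
      Nat.sInf_mem (s := {k | Packable inst k}) ⟨10, packable_more⟩
    exact not_packable (Packable.mono (by omega) hmem)

/-- the configurations of the fractional cover (integer sizes) -/
def pats : List (List ℕ) :=
  [[1774, 313, 313],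
   [1778, 311, 311],
   [1778, 312, 310],
   [1152, 1152],
   [1049, 684, 316, 316],
   [1042, 1042, 316],
   [990, 684, 684],
   [806, 806, 684],
   [804, 804, 791],
   [800, 800, 800],
   [806, 797, 797],
   [806, 800, 791],
   [1049, 675, 675],
   [1049, 990, 316],
   [1049, 684, 629],
   [806, 629, 629, 316],
   [1772, 314, 314],
   [1772, 316, 312],
   [1774, 316, 310]]

/-- their weights -/
def wts : List ℚ :=
  [1/2, 1/2, 1/2, 1/2, 6/31, 1/2, 51/62, 1/31, 1/2, 1/2, 1/2, 1/2, 1/2, 11/62, 4/31, 29/31, 1/2, 1/2, 1/2]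

/-- the `j`-th configuration as a multiplicity vector -/
def cfg (j : Fin 19) (σ : ℚ) : ℕ :=
  ((pats.getD j.val []).map (fun x : ℕ => (x : ℚ) / 2400)).count σ

/-- the `j`-th weight -/
def wt (j : Fin 19) : ℚ := wts.getD j.val 0

theorem lp_le : LP inst ≤ 545/62 := by
  apply csInf_le
  · refine ⟨0, ?_⟩
    rintro v ⟨m, c, z, hz, -, -, rfl⟩
    exact Finset.sum_nonneg (fun j _ => hz j)
  · refine ⟨19, cfg, fun j => (wt j : ℝ), ?_, ?_, ?_, ?_⟩
    · intro j
      have h : ∀ j, (0 : ℚ) ≤ wt j := by decide +kernel
      show (0 : ℝ) ≤ (wt j : ℝ)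
      exact_mod_cast h j
    · unfold IsConfig
      decide +kernel
    · intro σ hσ
      have h : ∀ σ ∈ sizes inst, (mult inst σ : ℚ) ≤ ∑ j, (cfg j σ : ℚ) * wt j := by
        decide +kernel
      have h' := h σ hσ
      show (mult inst σ : ℝ) ≤ ∑ j, (cfg j σ : ℝ) * (wt j : ℝ)
      exact_mod_cast h'
    · have h : (545/62 : ℚ) = ∑ j, wt j := by decide +kernel
      show (545/62 : ℝ) = ∑ j, (wt j : ℝ)
      rw [← Rat.cast_sum, ← h]
      norm_num

/-- There is a bin packing instance (27 items) with `OPT = 10` and `LP ≤ 545/62`, hence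
`OPT - LP ≥ 75/62`. -/
theorem result : ∃ (n : ℕ) (a : Fin n → ℚ), (∀ i, 0 < a i ∧ a i ≤ 1) ∧ OPT a = 10 ∧
    LP a ≤ 545/62 ∧ (75 : ℝ) / 62 ≤ (OPT a : ℝ) - LP a := by
  refine ⟨27, inst, by decide +kernel, opt_eq, lp_le, ?_⟩
  rw [opt_eq]
  have := lp_le
  norm_num
  linarith

end Vale.Agent.Results.P302.Gap75
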