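import Mathlib

namespace Vale.Agent.Results.P302.Gap77

open Finset

/-! ## Bin packing, `OPT` and the Gilmore-Gomory configuration LP -/

/-- `Packable a k`: the items `a 0, ..., a (n-1)` can be distributed over `k` bins
so that every bin has total size at most `1`. -/
def Packable {n : ℕ} (a : Fin n → ℚ) (k : ℕ) : Prop :=
  ∃ f : Fin n → Fin k, ∀ b : Fin k, ∑ i ∈ univ.filter (fun i => f i = b), a i ≤ 1

/-- `OPT a`: the least number of bins into which the items can be packed. -/
noncomputable def OPT {n : ℕ} (a : Fin n → ℚ) : ℕ := sInf {k | Packable a k}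

/-- The set of distinct sizes of the instance. -/
def sizes {n : ℕ} (a : Fin n → ℚ) : Finset ℚ := univ.image a

/-- The multiplicity of the size `σ` in the instance. -/
def mult {n : ℕ} (a : Fin n → ℚ) (σ : ℚ) : ℕ := (univ.filter (fun i => a i = σ)).card

/-- A configuration: a vector of multiplicities `c σ` (only the values on the sizes of the
instance matter) of total size at most `1`.  `c σ` may exceed `mult a σ`. -/
def IsConfig {n : ℕ} (a : Fin n → ℚ) (c : ℚ → ℕ) : Prop :=
  ∑ σ ∈ sizes a, σ * (c σ : ℚ) ≤ 1

/-- `v` is the value of a feasible solution of the configuration LP: finitely many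
configurations `c j` with weights `z j ≥ 0` covering every size `σ` at least `mult a σ` times. -/
def IsCoverValue {n : ℕ} (a : Fin n → ℚ) (v : ℝ) : Prop :=
  ∃ (m : ℕ) (c : Fin m → ℚ → ℕ) (z : Fin m → ℝ),
    (∀ j, 0 ≤ z j) ∧ (∀ j, IsConfig a (c j)) ∧
    (∀ σ ∈ sizes a, (mult a σ : ℝ) ≤ ∑ j, (c j σ : ℝ) * z j) ∧ v = ∑ j, z j

/-- The value of the Gilmore-Gomory configuration LP. -/
noncomputable def LP {n : ℕ} (a : Fin n → ℚ) : ℝ := sInf {v | IsCoverValue a v}

/-! ## Sequential packings and a verified search -/

/-- `Packs items caps`: the items can be put one after the other into bins whose remaining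
capacities form the multiset `caps`. -/
def Packs : List ℕ → Multiset ℕ → Prop
  | [], _ => True
  | x :: xs, caps => ∃ c ∈ caps, x ≤ c ∧ Packs xs ((c - x) ::ₘ caps.erase c)

theorem Packs.mono : ∀ (l : List ℕ) (s s' : Multiset ℕ),
    Multiset.Rel (· ≤ ·) s s' → Packs l s → Packs l s'
  | [], _, _, _, _ => trivial
  | x :: xs, s, s', hr, ⟨c, hc, hxc, hp⟩ => by
      obtain ⟨t, rfl⟩ := Multiset.exists_cons_of_mem hc
      rw [Multiset.rel_cons_left] at hr
      obtain ⟨b, bs, hcb, hrel, rfl⟩ := hr
      refine ⟨b, Multiset.mem_cons_self _ _, le_trans hxc hcb, ?_⟩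
      rw [Multiset.erase_cons_head] at hp ⊢
      exact Packs.mono xs _ _ (Multiset.Rel.cons (Nat.sub_le_sub_right hcb x) hrel) hp

theorem Packs.drop {x : ℕ} {l : List ℕ} {s : Multiset ℕ} (h : Packs (x :: l) s) : Packs l s := by
  obtain ⟨c, hc, _, hp⟩ := h
  obtain ⟨t, rfl⟩ := Multiset.exists_cons_of_mem hc
  rw [Multiset.erase_cons_head] at hp
  exact Packs.mono l _ _
    (Multiset.Rel.cons (Nat.sub_le c x) (Multiset.rel_refl_of_refl_on (fun _ _ => le_refl _))) hp

theorem Packs.drop_left : ∀ (xs : List ℕ) {ys : List ℕ} {s : Multiset ℕ},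
    Packs (xs ++ ys) s → Packs ys s
  | [], _, _, h => h
  | _ :: xs, _, _, h => Packs.drop_left xs (Packs.drop h)

theorem Packs.sum_le (smin : ℕ) : ∀ (l : List ℕ) (s : Multiset ℕ), (∀ x ∈ l, smin ≤ x) →
    Packs l s → l.sum ≤ (s.filter (fun c => smin ≤ c)).sum
  | [], _, _, _ => by simp
  | x :: xs, s, hl, ⟨c, hc, hxc, hp⟩ => by
      obtain ⟨t, rfl⟩ := Multiset.exists_cons_of_mem hc
      rw [Multiset.erase_cons_head] at hp
      have h1 := Packs.sum_le smin xs _ (fun y hy => hl y (List.mem_cons_of_mem _ hy)) hp
      have hx : smin ≤ x := hl x List.mem_cons_self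
      have hcs : smin ≤ c := le_trans hx hxc
      rw [Multiset.filter_cons_of_pos _ hcs, Multiset.sum_cons, List.sum_cons]
      by_cases h2 : smin ≤ c - x
      · rw [Multiset.filter_cons_of_pos _ h2, Multiset.sum_cons] at h1
        omega
      · rw [Multiset.filter_cons_of_neg _ h2] at h1
        omega

/-- membership test -/
def memb (c : ℕ) : List ℕ → Bool
  | [] => false
  | d :: ds => Nat.beq c d || memb c ds

theorem memb_eq_false {c : ℕ} : ∀ {l : List ℕ}, c ∉ l → memb c l = false
  | [], _ => rfl
  | d :: ds, h => by
      have h1 : c ≠ d := fun e => h (e ▸ List.mem_cons_self)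
      have h2 : c ∉ ds := fun e => h (List.mem_cons_of_mem _ e)
      have h3 : Nat.beq c d = false := by
        cases hb : Nat.beq c d
        · rfl
        · exact absurd (Nat.eq_of_beq_eq_true hb) h1
      simp [memb, h3, memb_eq_false h2]

/-- total capacity of the bins that can still take an item of size at least `smin` -/
def usable (smin : ℕ) : List ℕ → ℕ
  | [] => 0
  | c :: cs => cond (Nat.ble smin c) (c + usable smin cs) (usable smin cs)

theorem usable_eq (smin : ℕ) : ∀ l : List ℕ,
    usable smin l = ((l : Multiset ℕ).filter (fun c => smin ≤ c)).sum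
  | [] => rfl
  | c :: cs => by
      have ih := usable_eq smin cs
      rw [← Multiset.cons_coe]
      by_cases h : smin ≤ c
      · rw [Multiset.filter_cons_of_pos _ h, Multiset.sum_cons, ← ih]
        simp [usable, Nat.ble_eq_true_of_le h]
      · rw [Multiset.filter_cons_of_neg _ h, ← ih]
        have : Nat.ble smin c = false := by
          cases hb : Nat.ble smin c
          · rfl
          · exact absurd (Nat.le_of_ble_eq_true hb) h
        simp [usable, this]

/-- try to put `x` into each bin of `post` whose capacity does not occur in `pre`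
(the bins already tried), and continue with `k`. -/
def tryEach (x : ℕ) (k : List ℕ → Bool) : List ℕ → List ℕ → Bool
  | _, [] => false
  | pre, c :: post =>
    (Nat.ble x c && (!(memb c pre) && k ((c - x) :: (pre ++ post)))) || tryEach x k (c :: pre) post

theorem tryEach_complete (x : ℕ) (k : List ℕ → Bool) (P : Multiset ℕ → Prop)
    (hk : ∀ l : List ℕ, P (l : Multiset ℕ) → k l = true) :
    ∀ (post pre : List ℕ),
      (∃ c ∈ post, c ∉ pre ∧ x ≤ c ∧ P ((c - x) ::ₘ ((pre ++ post : List ℕ) : Multiset ℕ).erase c)) →
      tryEach x k pre post = true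
  | [], _, ⟨_, hc, _⟩ => by simp at hc
  | c0 :: post, pre, ⟨c, hc, hnp, hx, hP⟩ => by
      by_cases h : c = c0
      · subst h
        have e1 : ((pre ++ c :: post : List ℕ) : Multiset ℕ) = c ::ₘ ((pre ++ post : List ℕ) : Multiset ℕ) := by
          rw [Multiset.cons_coe]
          exact Multiset.coe_eq_coe.mpr List.perm_middle
        rw [e1, Multiset.erase_cons_head, Multiset.cons_coe] at hP
        have h1 := hk _ hP
        simp [tryEach, Nat.ble_eq_true_of_le hx, memb_eq_false hnp, h1]
      · have hc' : c ∈ post := by
          rcases List.mem_cons.mp hc with h' | h'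
          · exact absurd h' h
          · exact h'
        have hnp' : c ∉ c0 :: pre := by
          intro h'
          rcases List.mem_cons.mp h' with h'' | h''
          · exact h h''
          · exact hnp h''
        have e1 : ((pre ++ c0 :: post : List ℕ) : Multiset ℕ) = (((c0 :: pre) ++ post : List ℕ) : Multiset ℕ) :=
          Multiset.coe_eq_coe.mpr List.perm_middle
        rw [e1] at hP
        have ih := tryEach_complete x k P hk post (c0 :: pre) ⟨c, hc', hnp', hx, hP⟩
        simp [tryEach, ih]

/-- depth first search: can `items` (all of size at least `smin`, of total size at least `tot`)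
be packed into bins with remaining capacities `caps`? -/
def fits (smin : ℕ) : List ℕ → ℕ → List ℕ → Bool
  | [], _, _ => true
  | x :: xs, tot, caps =>
    Nat.ble tot (usable smin caps) && tryEach x (fits smin xs (tot - x)) [] caps

theorem fits_complete (smin : ℕ) : ∀ (items : List ℕ) (tot : ℕ) (caps : List ℕ),
    (∀ x ∈ items, smin ≤ x) → tot ≤ items.sum → Packs items (caps : Multiset ℕ) →
    fits smin items tot caps = true
  | [], _, _, _, _, _ => rfl
  | x :: xs, tot, caps, hl, ht, hp => by
      have h1 := Packs.sum_le smin (x :: xs) _ hl hp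
      rw [← usable_eq] at h1
      obtain ⟨c, hc, hxc, hp'⟩ := hp
      have h2 : tryEach x (fits smin xs (tot - x)) [] caps = true := by
        apply tryEach_complete x _ (fun s => Packs xs s)
        · intro l hl'
          apply fits_complete smin xs (tot - x) l (fun y hy => hl y (List.mem_cons_of_mem _ hy)) _ hl'
          rw [List.sum_cons] at ht
          omega
        · exact ⟨c, by simpa using hc, by simp, hxc, by simpa using hp'⟩
      simp [fits, Nat.ble_eq_true_of_le (le_trans ht h1), h2]

/-- search over a first group of items; a state `caps` with `bad caps = true` is abandoned. -/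
def fitsP (bad : List ℕ → Bool) : List ℕ → List ℕ → Bool
  | [], caps => !bad caps
  | x :: xs, caps => !bad caps && tryEach x (fitsP bad xs) [] caps

theorem fitsP_complete (bad : List ℕ → Bool) (ys : List ℕ)
    (hbad : ∀ caps : List ℕ, bad caps = true → ¬ Packs ys (caps : Multiset ℕ)) :
    ∀ (xs : List ℕ) (caps : List ℕ), Packs (xs ++ ys) (caps : Multiset ℕ) →
      fitsP bad xs caps = true
  | [], caps, hp => by
      have : bad caps = false := by
        cases hb : bad caps
        · rfl
        · exact absurd hp (hbad caps hb)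
      simp [fitsP, this]
  | x :: xs, caps, hp => by
      have h0 : bad caps = false := by
        cases hb : bad caps
        · rfl
        · exact absurd (Packs.drop_left (x :: xs) hp) (hbad caps hb)
      obtain ⟨c, hc, hxc, hp'⟩ := hp
      have h2 : tryEach x (fitsP bad xs) [] caps = true := by
        apply tryEach_complete x _ (fun s => Packs (xs ++ ys) s)
        · intro l hl'
          exact fitsP_complete bad ys hbad xs l hl'
        · exact ⟨c, by simpa using hc, by simp, hxc, by simpa using hp'⟩
      simp [fitsP, h0, h2]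

/-- insertion into a decreasing list -/
def insDesc (x : ℕ) : List ℕ → List ℕ
  | [] => [x]
  | y :: ys => cond (Nat.ble y x) (x :: y :: ys) (y :: insDesc x ys)

/-- insertion sort, decreasing -/
def sortDesc : List ℕ → List ℕ
  | [] => []
  | x :: xs => insDesc x (sortDesc xs)

theorem insDesc_coe (x : ℕ) : ∀ l : List ℕ, ((insDesc x l : List ℕ) : Multiset ℕ) = x ::ₘ (l : Multiset ℕ)
  | [] => rfl
  | y :: ys => by
      cases hb : Nat.ble y x
      · simp only [insDesc, hb, cond_false]
        rw [← Multiset.cons_coe, insDesc_coe x ys, ← Multiset.cons_coe, Multiset.cons_swap]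
      · simp only [insDesc, hb, cond_true]
        rfl

theorem sortDesc_coe : ∀ l : List ℕ, ((sortDesc l : List ℕ) : Multiset ℕ) = (l : Multiset ℕ)
  | [] => rfl
  | x :: xs => by
      simp only [sortDesc]
      rw [insDesc_coe, sortDesc_coe xs, Multiset.cons_coe]

/-- pointwise comparison of two lists of the same length -/
def leAll : List ℕ → List ℕ → Bool
  | [], [] => true
  | x :: xs, y :: ys => Nat.ble x y && leAll xs ys
  | _, _ => false

theorem leAll_rel : ∀ (l l' : List ℕ), leAll l l' = true →
    Multiset.Rel (· ≤ ·) (l : Multiset ℕ) (l' : Multiset ℕ)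
  | [], [], _ => Multiset.Rel.zero
  | x :: xs, y :: ys, h => by
      simp only [leAll, Bool.and_eq_true] at h
      rw [← Multiset.cons_coe, ← Multiset.cons_coe]
      exact Multiset.Rel.cons (Nat.le_of_ble_eq_true h.1) (leAll_rel xs ys h.2)
  | [], _ :: _, h => by simp [leAll] at h
  | _ :: _, [], h => by simp [leAll] at h

theorem packs_of_assign {ι : Type} {k : ℕ} (s : ι → ℕ) (f : ι → Fin k) :
    ∀ (l : List ι) (cap : Fin k → ℕ),
      (∀ b, (l.map (fun i => if f i = b then s i else 0)).sum ≤ cap b) →
      Packs (l.map s) ((univ : Finset (Fin k)).val.map cap)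
  | [], _, _ => trivial
  | i :: l, cap, h => by
      have hb := h (f i)
      simp only [List.map_cons, List.sum_cons, if_true] at hb
      refine ⟨cap (f i), Multiset.mem_map_of_mem _ (Finset.mem_univ_val _), by omega, ?_⟩
      have ih := packs_of_assign s f l (Function.update cap (f i) (cap (f i) - s i)) (by
        intro b
        by_cases hbb : b = f i
        · subst hbb
          rw [Function.update_self]
          omega
        · rw [Function.update_of_ne hbb]
          have := h b
          simp only [List.map_cons, List.sum_cons] at this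
          omega)
      have e : (cap (f i) - s i) ::ₘ (((univ : Finset (Fin k)).val.map cap).erase (cap (f i)))
          = (univ : Finset (Fin k)).val.map (Function.update cap (f i) (cap (f i) - s i)) := by
        have hu : (univ : Finset (Fin k)).val = f i ::ₘ ((univ : Finset (Fin k)).val.erase (f i)) :=
          (Multiset.cons_erase (Finset.mem_univ_val _)).symm
        have hnd : (univ : Finset (Fin k)).val.Nodup := (univ : Finset (Fin k)).nodup
        rw [hu, Multiset.map_cons, Multiset.map_cons, Multiset.erase_cons_head, Function.update_self]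
        congr 1
        apply Multiset.map_congr rfl
        intro b hb'
        have : b ≠ f i := ((Multiset.Nodup.mem_erase_iff hnd).mp hb').1
        rw [Function.update_of_ne this]
      rw [e]
      exact ih


/-! ## The instance -/

/-- three big items and eight small items -/
def firstItems : List ℕ := [1778, 1774, 1772, 316, 316, 316, 314, 313, 312, 311, 310]

/-- the sixteen medium items -/
def mediumItems : List ℕ :=
  [1059, 1032, 828, 828, 825, 824, 823, 801, 801, 800, 800, 778, 778, 752, 749, 629]

/-- the integer sizes (capacity 2400) -/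
def szList : List ℕ := firstItems ++ mediumItems

/-- three relaxed states: three items of size 310 in six bins, three useless bins -/
def relaxed : List (List ℕ) :=
  [[2400, 2400, 2400, 2400, 2400, 1470, 628, 628, 628],
   [2400, 2400, 2400, 2400, 2090, 1780, 628, 628, 628],
   [2400, 2400, 2400, 2090, 2090, 2090, 628, 628, 628]]

/-- a state is bad if it is dominated by one of the relaxed states -/
def bad (caps : List ℕ) : Bool := relaxed.any (fun r => leAll (sortDesc caps) r)

theorem relaxed_infeasible : relaxed.all (fun r => !fits 629 mediumItems 13107 r) = true := by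
  decide +kernel

theorem first_infeasible : fitsP bad firstItems (List.replicate 9 2400) = false := by
  decide +kernel

theorem bad_sound (caps : List ℕ) (h : bad caps = true) : ¬ Packs mediumItems (caps : Multiset ℕ) := by
  intro hp
  simp only [bad, List.any_eq_true] at h
  obtain ⟨r, hr, hle⟩ := h
  have h1 := leAll_rel _ _ hle
  rw [sortDesc_coe] at h1
  have h2 := Packs.mono _ _ _ h1 hp
  have h3 := fits_complete 629 mediumItems 13107 r (by decide) (by decide) h2
  have h4 := List.all_eq_true.mp relaxed_infeasible r hr
  simp [h3] at h4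

theorem not_packs : ¬ Packs szList (Multiset.replicate 9 2400) := by
  intro hp
  have h := fitsP_complete bad mediumItems bad_sound firstItems (List.replicate 9 2400)
    (by rw [Multiset.coe_replicate]; exact hp)
  rw [first_infeasible] at h
  exact Bool.false_ne_true h


/-- the integer size of the item `i` -/
def sz (i : Fin 27) : ℕ := szList.getD i.val 0

/-- the instance: 27 items, sizes `sz i / 2400` -/
def inst (i : Fin 27) : ℚ := (sz i : ℚ) / 2400

theorem not_packable_nine : ¬ Packable inst 9 := by
  rintro ⟨f, hf⟩
  apply not_packs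
  have h := packs_of_assign sz f (List.finRange 27) (fun _ => 2400) (by
    intro b
    rw [← Fin.sum_univ_def, ← Finset.sum_filter]
    have hb := hf b
    simp only [inst] at hb
    rw [← Finset.sum_div, div_le_one (by norm_num)] at hb
    exact_mod_cast hb)
  have e1 : (List.finRange 27).map sz = szList := by decide
  have e2 : (univ : Finset (Fin 9)).val.map (fun _ => 2400) = Multiset.replicate 9 2400 := by
    simp [Multiset.map_const']
  rw [e1, e2] at h
  exact h

theorem Packable.mono {n : ℕ} {a : Fin n → ℚ} {k k' : ℕ} (h : k ≤ k') (hp : Packable a k) :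
    Packable a k' := by
  obtain ⟨f, hf⟩ := hp
  refine ⟨fun i => Fin.castLE h (f i), fun b => ?_⟩
  by_cases hb : b.val < k
  · have e : (univ.filter fun i => Fin.castLE h (f i) = b) = univ.filter fun i => f i = ⟨b.val, hb⟩ := by
      ext i
      simp [Fin.ext_iff]
    rw [e]
    exact hf _
  · have e : (univ.filter fun i => Fin.castLE h (f i) = b) = ∅ := by
      ext i
      simp only [Finset.mem_filter, Finset.mem_univ, true_and, Finset.notMem_empty, iff_false]
      intro he
      apply hb
      rw [← he]
      exact (f i).2
    rw [e]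
    simp

/-- a packing into ten bins -/
def asgList : List (Fin 10) :=
  [0, 1, 2, 0, 1, 2, 8, 8, 2, 9, 1, 3, 3, 4, 4, 5, 5, 6, 6, 7, 7, 8, 7, 8, 6, 5, 4]

theorem packable_ten : Packable inst 10 :=
  ⟨fun i => asgList.getD i.val 0, by decide +kernel⟩

theorem opt_eq : OPT inst = 10 := by
  apply le_antisymm
  · exact Nat.sInf_le packable_ten
  · by_contra hlt
    have hlt' : OPT inst < 10 := not_le.mp hlt
    have hmem : Packable inst (OPT inst) :=
      Nat.sInf_mem (s := {k | Packable inst k}) ⟨10, packable_ten⟩
    exact not_packable_nine (Packable.mono (by omega) hmem)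

/-- the configurations of the fractional cover (integer sizes) -/
def pats : List (List ℕ) :=
  [[1778, 312, 310], [1778, 311, 311], [1774, 313, 313], [1774, 316, 310], [1772, 316, 312],
   [1772, 314, 314], [1059, 629, 629], [828, 801, 752], [825, 823, 752], [825, 825, 749],
   [828, 778, 778], [800, 800, 800], [801, 801, 778], [824, 824, 752], [1059, 316, 316, 316, 316],
   [828, 823, 749], [828, 828, 316, 316], [1032, 1032, 316], [1059, 1059]]

/-- their weights -/
def wts : List ℚ :=
  [1/2, 1/2, 1/2, 1/2, 1/2, 1/2, 1/2, 1/6, 1/3, 1/3, 13/24, 2/3, 11/12, 1/2, 7/32, 2/3, 5/16,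
   1/2, 9/64]

/-- the `j`-th configuration as a multiplicity vector -/
def cfg (j : Fin 19) (σ : ℚ) : ℕ :=
  ((pats.getD j.val []).map (fun x : ℕ => (x : ℚ) / 2400)).count σ

/-- the `j`-th weight -/
def wt (j : Fin 19) : ℚ := wts.getD j.val 0

theorem lp_le : LP inst ≤ 563 / 64 := by
  apply csInf_le
  · refine ⟨0, ?_⟩
    rintro v ⟨m, c, z, hz, -, -, rfl⟩
    exact Finset.sum_nonneg (fun j _ => hz j)
  · refine ⟨19, cfg, fun j => (wt j : ℝ), ?_, ?_, ?_, ?_⟩
    · intro j
      have h : ∀ j, (0 : ℚ) ≤ wt j := by decide +kernel
      show (0 : ℝ) ≤ (wt j : ℝ)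
      exact_mod_cast h j
    · unfold IsConfig
      decide +kernel
    · intro σ hσ
      have h : ∀ σ ∈ sizes inst, (mult inst σ : ℚ) ≤ ∑ j, (cfg j σ : ℚ) * wt j := by
        decide +kernel
      have h' := h σ hσ
      show (mult inst σ : ℝ) ≤ ∑ j, (cfg j σ : ℝ) * (wt j : ℝ)
      exact_mod_cast h'
    · have h : (563 / 64 : ℚ) = ∑ j, wt j := by decide +kernel
      show (563 / 64 : ℝ) = ∑ j, (wt j : ℝ)
      rw [← Rat.cast_sum, ← h]
      norm_num

/-- There is a bin packing instance (27 items) with `OPT = 10` and `LP ≤ 563/64`, hence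
`OPT - LP ≥ 77/64 > 6/5`. -/
theorem result : ∃ (n : ℕ) (a : Fin n → ℚ), (∀ i, 0 < a i ∧ a i ≤ 1) ∧ OPT a = 10 ∧
    LP a ≤ 563 / 64 ∧ (77 : ℝ) / 64 ≤ (OPT a : ℝ) - LP a := by
  refine ⟨27, inst, by decide +kernel, opt_eq, lp_le, ?_⟩
  rw [opt_eq]
  have := lp_le
  norm_num
  linarith

end Vale.Agent.Results.P302.Gap77
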