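import Vale.Agent.Results.P302.Gap77

namespace Vale.Agent.Results.P302.GapElevenNinths

open Finset Vale.Agent.Results.P302.Gap77

/-- three big items and the small items -/
def firstItems : List ℕ := [1770, 1766, 1764, 320, 320, 318, 317, 316, 315, 314]

/-- the medium items -/
def mediumItems : List ℕ :=
  [1103, 1103, 1098, 1088, 999, 999, 812, 805, 802, 795, 794, 789, 657, 657, 656, 651, 651, 647, 642]

/-- the integer sizes (capacity 2400) -/
def szList : List ℕ := firstItems ++ mediumItems

/-- relaxed states: 2 items of size 314 in 7 bins, three useless bins -/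
def relaxed : List (List ℕ) :=
  [[2400, 2400, 2400, 2400, 2400, 2400, 1772, 636, 636, 636],
   [2400, 2400, 2400, 2400, 2400, 2086, 2086, 636, 636, 636]]

/-- a state is bad if it is dominated by one of the relaxed states -/
def bad (caps : List ℕ) : Bool := relaxed.any (fun r => leAll (sortDesc caps) r)

theorem relaxed_infeasible : relaxed.all (fun r => !fits 642 mediumItems 15748 r) = true := by
  decide +kernel

theorem first_infeasible : fitsP bad firstItems (List.replicate 10 2400) = false := by
  decide +kernel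

theorem bad_sound (caps : List ℕ) (h : bad caps = true) : ¬ Packs mediumItems (caps : Multiset ℕ) := by
  intro hp
  simp only [bad, List.any_eq_true] at h
  obtain ⟨r, hr, hle⟩ := h
  have h1 := leAll_rel _ _ hle
  rw [sortDesc_coe] at h1
  have h2 := Packs.mono _ _ _ h1 hp
  have h3 := fits_complete 642 mediumItems 15748 r (by decide) (by decide) h2
  have h4 := List.all_eq_true.mp relaxed_infeasible r hr
  simp [h3] at h4

theorem not_packs : ¬ Packs szList (Multiset.replicate 10 2400) := by
  intro hp
  have h := fitsP_complete bad mediumItems bad_sound firstItems (List.replicate 10 2400)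
    (by rw [Multiset.coe_replicate]; exact hp)
  rw [first_infeasible] at h
  exact Bool.false_ne_true h

/-- the integer size of the item `i` -/
def sz (i : Fin 29) : ℕ := szList.getD i.val 0

/-- the instance: 29 items, sizes `sz i / 2400` -/
def inst (i : Fin 29) : ℚ := (sz i : ℚ) / 2400

theorem not_packable : ¬ Packable inst 10 := by
  rintro ⟨f, hf⟩
  apply not_packs
  have h := packs_of_assign sz f (List.finRange 29) (fun _ => 2400) (by
    intro b
    rw [← Fin.sum_univ_def, ← Finset.sum_filter]
    have hb := hf b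
    simp only [inst] at hb
    rw [← Finset.sum_div, div_le_one (by norm_num)] at hb
    exact_mod_cast hb)
  have e1 : (List.finRange 29).map sz = szList := by decide
  have e2 : (univ : Finset (Fin 10)).val.map (fun _ => 2400) = Multiset.replicate 10 2400 := by
    simp [Multiset.map_const']
  rw [e1, e2] at h
  exact h

/-- a packing into 11 bins -/
def asgList : List (Fin 11) :=
  [0, 1, 2, 0, 1, 2, 2, 5, 9, 1, 3, 3, 4, 4, 5, 5, 6, 6, 7, 7, 7, 8, 6, 8, 8, 9, 9, 9, 10]

theorem packable_more : Packable inst 11 :=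
  ⟨fun i => asgList.getD i.val 0, by decide +kernel⟩

theorem opt_eq : OPT inst = 11 := by
  apply le_antisymm
  · exact Nat.sInf_le packable_more
  · by_contra hlt
    have hlt' : OPT inst < 11 := not_le.mp hlt
    have hmem : Packable inst (OPT inst) :=
      Nat.sInf_mem (s := {k | Packable inst k}) ⟨11, packable_more⟩
    exact not_packable (Packable.mono (by omega) hmem)

/-- the configurations of the fractional cover (integer sizes) -/
def pats : List (List ℕ) :=
  [[1766, 317, 317],
   [1770, 315, 315],
   [1770, 316, 314],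
   [1103, 1103],
   [802, 802, 795],
   [999, 999, 320],
   [999, 657, 657],
   [1103, 657, 320, 320],
   [805, 805, 789],
   [1103, 651, 642],
   [812, 794, 794],
   [812, 795, 789],
   [1088, 657, 651],
   [1103, 647, 647],
   [1098, 657, 642],
   [1088, 656, 656],
   [1098, 651, 651],
   [1764, 318, 318],
   [1764, 320, 316],
   [1766, 320, 314]]

/-- their weights -/
def wts : List ℚ :=
  [1/2, 1/2, 1/2, 4/9, 1/2, 7/9, 4/9, 1/9, 1/2, 1/2, 1/2, 1/2, 1/2, 1/2, 1/2, 1/2, 1/2, 1/2, 1/2, 1/2]

/-- the `j`-th configuration as a multiplicity vector -/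
def cfg (j : Fin 20) (σ : ℚ) : ℕ :=
  ((pats.getD j.val []).map (fun x : ℕ => (x : ℚ) / 2400)).count σ

/-- the `j`-th weight -/
def wt (j : Fin 20) : ℚ := wts.getD j.val 0

theorem lp_le : LP inst ≤ 88/9 := by
  apply csInf_le
  · refine ⟨0, ?_⟩
    rintro v ⟨m, c, z, hz, -, -, rfl⟩
    exact Finset.sum_nonneg (fun j _ => hz j)
  · refine ⟨20, cfg, fun j => (wt j : ℝ), ?_, ?_, ?_, ?_⟩
    · intro j
      have h : ∀ j, (0 : ℚ) ≤ wt j := by decide +kernel
      show (0 : ℝ) ≤ (wt j : ℝ)
      exact_mod_cast h j
    · unfold IsConfig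
      decide +kernel
    · intro σ hσ
      have h : ∀ σ ∈ sizes inst, (mult inst σ : ℚ) ≤ ∑ j, (cfg j σ : ℚ) * wt j := by
        decide +kernel
      have h' := h σ hσ
      show (mult inst σ : ℝ) ≤ ∑ j, (cfg j σ : ℝ) * (wt j : ℝ)
      exact_mod_cast h'
    · have h : (88/9 : ℚ) = ∑ j, wt j := by decide +kernel
      show (88/9 : ℝ) = ∑ j, (wt j : ℝ)
      rw [← Rat.cast_sum, ← h]
      norm_num

/-- There is a bin packing instance (29 items) with `OPT = 11` and `LP ≤ 88/9`, hence
`OPT - LP ≥ 11/9`. -/
theorem result : ∃ (n : ℕ) (a : Fin n → ℚ), (∀ i, 0 < a i ∧ a i ≤ 1) ∧ OPT a = 11 ∧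
    LP a ≤ 88/9 ∧ (11 : ℝ) / 9 ≤ (OPT a : ℝ) - LP a := by
  refine ⟨29, inst, by decide +kernel, opt_eq, lp_le, ?_⟩
  rw [opt_eq]
  have := lp_le
  norm_num
  linarith

end Vale.Agent.Results.P302.GapElevenNinths
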